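import Crest.Agent.X262.Mod79.Neg
import Crest.Agent.X277.BD.BrA

/-!
# Row 262, SARK (helper43): terminal models, Mori fibre spaces, links

This file is the interface between the Sarkisov layer and its consumers (REG, BND).

* `SameP H H'`     : the two models have the same prime divisors;
* `KLe`, `KEq`     : comparison with `s K` at divisorial valuations (model free);
* `TM b`           : terminal `ℚ`-factorial model, `κ = r K`;
* `MFS b`          : Mori fibre space, `A` is the polarisation of the base;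
* `Adj b X`, `Flip b A Z Z'` : a small wall `Z → X ← Z'` over the `A`-model;
* `DivE`, `FibE`, `End`, `Link`, `Step` : links; `SarkStmt` : the output.
-/

set_option autoImplicit false

open scoped KaehlerDifferential

noncomputable section

namespace Crest.Agent.X262.Sark

open Crest.Agent.X277 Crest.Agent.X277.Lef Crest.Agent.X277.BD Crest.Agent.X277.Pst
open Crest.Agent.X277.BD.Br (On oP kP)
open Crest.Agent.X262.Mod

variable {K : Type} [Field K] [Algebra ℂ K] {n : ℕ}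

/-- the two models have the same prime divisors -/
def SameP (H H' : BD ℂ K) : Prop := ∀ V, Prm H V ↔ Prm H' V

theorem SameP.rfl {H : BD ℂ K} : SameP H H := fun _ => Iff.rfl

theorem SameP.symm {H H' : BD ℂ K} (h : SameP H H') : SameP H' H := fun V => (h V).symm

theorem SameP.trans {H H' H'' : BD ℂ K} (h : SameP H H') (h' : SameP H' H'') : SameP H H'' :=
  fun V => (h V).trans (h' V)

/-- `a ≤ s K` at every divisorial valuation -/
def KLe (b : Module.Basis (Fin n) K Ω[K⁄ℂ]) (s : ℕ) (a : BD ℂ K) : Prop :=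
  ∀ W : PModel ℂ K, LeOn (oP W) a (s • kP W b)

/-- `a = s K` at the primes of the `H`-model -/
def KEq (b : Module.Basis (Fin n) K Ω[K⁄ℂ]) (s : ℕ) (H a : BD ℂ K) : Prop :=
  ∀ (W : PModel ℂ K) (V : RZ ℂ K), Prm (oP W) V → Prm H V → a.val V = (s • kP W b).val V

/-- a terminal `ℚ`-factorial model; `κ` is the pull-back of `r K` -/
structure TM (b : Module.Basis (Fin n) K Ω[K⁄ℂ]) where
  /-- the polarisation -/
  H : BD ℂ K
  mod : IsMod H
  /-- the index -/
  r : ℕ
  r_pos : 0 < r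
  /-- `r K` -/
  κ : BD ℂ K
  car : Car H κ
  κ_eq : KEq b r H κ
  κ_lt : ∀ (W : PModel ℂ K) (V : RZ ℂ K), Prm (oP W) V → ¬ Prm H V →
    κ.val V < (r • kP W b).val V
  qf : ∀ a : BD ℂ K, ∃ m : ℕ, 0 < m ∧ ∃ a', Car H a' ∧ EqOn H a' (m • a)

/-- a Mori fibre space: `-K` is ample over the `A`-model, the relative Picard number is one -/
structure MFS (b : Module.Basis (Fin n) K Ω[K⁄ℂ]) extends TM b where
  /-- the polarisation of the base -/
  A : BD ℂ K
  A_free : A.Free
  A_car : Car H A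
  nb : ¬ Big A
  anti : ∃ q l : ℕ, 0 < q ∧ (l • A - q • κ - H).Free
  rho : ∀ a, Car H a → ∃ m : ℕ, 0 < m ∧ ∃ c : ℤ, Car A (m • a - c • κ)

/-- `X = s K + h` on its own model, `h` nef and big, and the pair is klt -/
def Adj (b : Module.Basis (Fin n) K Ω[K⁄ℂ]) (X : BD ℂ K) : Prop :=
  ∃ (s : ℕ) (h : BD ℂ K), 0 < s ∧ Nef h ∧ Big h ∧ KLe b s (X - h) ∧ KEq b s X (X - h)

/-- a small wall `Z → X ← Z'` over the `A`-model -/
def Flip (b : Module.Basis (Fin n) K Ω[K⁄ℂ]) (A : BD ℂ K) (Z Z' : TM b) : Prop :=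
  ∃ X : BD ℂ K, IsMod X ∧ SameP X Z.H ∧ SameP X Z'.H ∧ Car Z.H X ∧ Car Z'.H X ∧ Car X A ∧
    Adj b X ∧ ∃ l i j : ℕ, 0 < l ∧ 0 < i ∧ 0 < j ∧ EqOn X (l • X) (i • Z.H + j • Z'.H)

/-- a divisorial end: `Z → Y` contracts `E`, `Y` is a Mori fibre space over the `A`-model, and
`-K` is semiample over the `A`-model on the small modification `Zc` of `Z` -/
structure DivE (b : Module.Basis (Fin n) K Ω[K⁄ℂ]) (A : BD ℂ K) (Z : TM b) where
  /-- the Mori fibre space -/
  Y : MFS b
  /-- the exceptional prime -/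
  E : RZ ℂ K
  hA : Y.A = A
  car : Car Z.H Y.H
  nE : ¬ Prm Y.H E
  prm : ∀ V, Prm Z.H V ↔ Prm Y.H V ∨ V = E
  /-- the model on which `-K` is nef -/
  Zc : TM b
  flips : Relation.ReflTransGen (Flip b A) Z Zc
  nef : RSa A (-Zc.κ)

/-- a fibre end: a Mori fibre space with the primes of `Z` whose base dominates the `A`-model -/
structure FibE (b : Module.Basis (Fin n) K Ω[K⁄ℂ]) (A : BD ℂ K) (Z : TM b) where
  /-- the Mori fibre space -/
  Y : MFS b
  same : SameP Y.H Z.H
  car : Car Y.A A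

/-- the model `H` is an end of the link with middle `Z` -/
def End (b : Module.Basis (Fin n) K Ω[K⁄ℂ]) (A : BD ℂ K) (Z : TM b) (H : BD ℂ K) : Prop :=
  (∃ d : DivE b A Z, SameP d.Y.H H) ∨ ∃ f : FibE b A Z, SameP f.Y.H H

/-- a Sarkisov link -/
def Link (b : Module.Basis (Fin n) K Ω[K⁄ℂ]) (H H' : BD ℂ K) : Prop :=
  ∃ (A : BD ℂ K) (Z Z' : TM b), A.Free ∧ SameP Z.H Z'.H ∧ Car Z.H A ∧ Car Z'.H A ∧
    End b A Z H ∧ End b A Z' H'

/-- one step of the factorisation -/
def Step (b : Module.Basis (Fin n) K Ω[K⁄ℂ]) (H H' : BD ℂ K) : Prop := SameP H H' ∨ Link b H H'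

/-- a smooth Fano model of Picard number one (the fields of `Top.Fano1`) -/
def F1 (P : PModel ℂ K) (b : Module.Basis (Fin n) K Ω[K⁄ℂ]) : Prop :=
  (∃ r : ℕ, 0 < r ∧ Lin (kP P b + r • oP P) 0) ∧
    ∀ a ∈ On P, ∃ m : ℕ, 0 < m ∧ ∃ c : ℤ, Lin (m • a) (c • oP P)

/-- **the output of the layer** -/
def SarkStmt (n : ℕ) : Prop := ∀ (K : Type) [Field K] [Algebra ℂ K]
  (b : Module.Basis (Fin (n + 1)) K Ω[K⁄ℂ]) (P X : PModel ℂ K), F1 P b → F1 X b →
    Relation.ReflTransGen (Step b) (oP P) (oP X)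

end Crest.Agent.X262.Sark
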