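import Mathlib

/-!
# Row 262, SARK (helper43): hyperplane arrangements, language and the combinatorial statements

`Λ = κ → ℤ`, `l i` finitely many linear forms.

* `Ps x` : the open orthant; `Conf`, `Face`, `Cham`, `Cd x d` (codimension `≤ d`), `Bdy S x`;
* `Opn Q` : open cones; `Cone l S` : `S` is a cone which is a union of closed cells;
* `PathStmt`, `ChainStmt` : the two walks; elementary facts on faces.
-/

set_option autoImplicit false

open Filter

namespace Crest.Agent.X262.Sark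

variable {κ : Type} {N : ℕ}

/-- the open orthant -/
def Ps (x : κ → ℤ) : Prop := ∀ j, 0 < x j

/-- `x`, `y` lie in one closed cell -/
def Conf (l : Fin N → (κ → ℤ) →+ ℤ) (x y : κ → ℤ) : Prop := ∀ i, 0 ≤ l i x * l i y

/-- `x` lies in the closure of the cell of `y` -/
def Face (l : Fin N → (κ → ℤ) →+ ℤ) (x y : κ → ℤ) : Prop := ∀ i, l i x = 0 ∨ 0 < l i x * l i y

/-- `y` lies in an open chamber -/
def Cham (l : Fin N → (κ → ℤ) →+ ℤ) (y : κ → ℤ) : Prop := ∀ i, l i ≠ 0 → l i y ≠ 0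

/-- the cell of `x` has codimension at most `d` -/
def Cd (l : Fin N → (κ → ℤ) →+ ℤ) (x : κ → ℤ) (d : ℕ) : Prop :=
  ∃ α : Fin d → (κ → ℤ) →+ ℤ, (∀ j, α j x = 0) ∧
    ∀ i, l i x = 0 → ∀ y, (∀ j, α j y = 0) → l i y = 0

/-- `x` is not an interior point of the cone `S` -/
def Bdy (S : Set (κ → ℤ)) (x : κ → ℤ) : Prop := ∃ y, ∀ n : ℕ, n • x + y ∉ S

/-- open cones -/
structure Opn (Q : Set (κ → ℤ)) : Prop where
  add : ∀ x ∈ Q, ∀ y ∈ Q, x + y ∈ Q
  ev : ∀ x ∈ Q, ∀ y, ∀ᶠ n : ℕ in atTop, n • x + y ∈ Q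

/-- a cone which is a union of closed cells (in the open orthant) -/
structure Cone (l : Fin N → (κ → ℤ) →+ ℤ) (S : Set (κ → ℤ)) : Prop where
  add : ∀ x ∈ S, ∀ y ∈ S, x + y ∈ S
  div : ∀ (m : ℕ) x, 0 < m → m • x ∈ S → x ∈ S
  cl : ∀ x y, Ps x → Ps y → y ∈ S → Face l x y → x ∈ S

/-- a point of a facet of `S` -/
def Fct (l : Fin N → (κ → ℤ) →+ ℤ) (S : Set (κ → ℤ)) (x : κ → ℤ) : Prop :=
  Ps x ∧ x ∈ S ∧ Bdy S x ∧ Cd l x 1

/-- a point of a face of codimension at most two -/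
def Rdg (l : Fin N → (κ → ℤ) →+ ℤ) (S : Set (κ → ℤ)) (x : κ → ℤ) : Prop :=
  Ps x ∧ x ∈ S ∧ Bdy S x ∧ Cd l x 2

/-- adjacent facets -/
def Adjc (l : Fin N → (κ → ℤ) →+ ℤ) (S : Set (κ → ℤ)) (x₁ x₂ : κ → ℤ) : Prop :=
  Fct l S x₁ ∧ Fct l S x₂ ∧ ∃ x, Rdg l S x ∧ Face l x x₁ ∧ Face l x x₂

/-- the walk along the boundary of `S` -/
def PathStmt : Prop := ∀ (κ : Type) [Fintype κ] (N : ℕ) (l : Fin N → (κ → ℤ) →+ ℤ)
  (S Q₀ Q₁ : Set (κ → ℤ)) (u w₀ w₁ : κ → ℤ), Cone l S → Opn Q₀ → Opn Q₁ → Ps u → Ps w₀ → Ps w₁ →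
  (∀ y, ∀ᶠ n : ℕ in atTop, n • u + y ∉ S) → ¬ Bdy S w₀ → ¬ Bdy S w₁ →
  u ∈ Q₀ → u ∈ Q₁ → w₀ ∈ Q₀ → w₁ ∈ Q₁ →
  ∃ x₀ ∈ Q₀, ∃ x₁ ∈ Q₁, Fct l S x₀ ∧ Fct l S x₁ ∧ Relation.ReflTransGen (Adjc l S) x₀ x₁

/-- the half open segment from `p₀` to `p₁` -/
def Seg (p₀ p₁ z : κ → ℤ) : Prop := ∃ a c : ℕ, 0 < a ∧ z = a • p₀ + c • p₁

/-- two consecutive chambers on the segment and a point `w` between them -/
def Nxt (l : Fin N → (κ → ℤ) →+ ℤ) (p₀ p₁ y y' : κ → ℤ) : Prop :=
  Seg p₀ p₁ y ∧ Seg p₀ p₁ y' ∧ Cham l y ∧ Cham l y' ∧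
  (∃ w, Seg p₀ p₁ w ∧ Face l w y ∧ Face l w y' ∧
    ∃ m i j : ℕ, 0 < m ∧ 0 < i ∧ 0 < j ∧ m • w = i • y + j • y') ∧
  ∃ m i j : ℕ, 0 < m ∧ m • y' = i • y + j • p₁

/-- the walk along a segment which starts in a chamber -/
def ChainStmt : Prop := ∀ (κ : Type) (N : ℕ) (l : Fin N → (κ → ℤ) →+ ℤ) (p₀ p₁ : κ → ℤ),
  Cham l p₀ → ∃ y, Seg p₀ p₁ y ∧ Cham l y ∧ Face l p₁ y ∧
    Relation.ReflTransGen (Nxt l p₀ p₁) p₀ y

/-! ### elementary facts -/

variable {l : Fin N → (κ → ℤ) →+ ℤ} {x y z w : κ → ℤ}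

theorem Ps.add (hx : Ps x) (hy : Ps y) : Ps (x + y) := fun j => add_pos (hx j) (hy j)

theorem Ps.nsmul (hx : Ps x) {n : ℕ} (hn : 0 < n) : Ps (n • x) := fun j => by
  simpa using mul_pos (Int.natCast_pos.2 hn) (hx j)

theorem ev_pos {a : ℤ} (ha : 0 < a) (c : ℤ) : ∀ᶠ n : ℕ in atTop, 0 < n * a + c := by
  filter_upwards [eventually_gt_atTop c.natAbs] with n hn
  have h1 : |c| < n := by rw [Int.abs_eq_natAbs]; exact_mod_cast hn
  nlinarith [neg_abs_le c, abs_nonneg c]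

theorem Ps.ev [Finite κ] (hx : Ps x) (y : κ → ℤ) : ∀ᶠ n : ℕ in atTop, Ps (n • x + y) := by
  refine eventually_all.2 fun j => ?_
  simpa using ev_pos (hx j) (y j)

theorem Conf.symm (h : Conf l x y) : Conf l y x := fun i => mul_comm (l i x) _ ▸ h i

theorem Face.rfl : Face l x x := fun i => (eq_or_ne (l i x) 0).imp id mul_self_pos.2

theorem Face.conf (h : Face l x y) : Conf l x y := fun i =>
  (h i).elim (fun h => by simp [h]) le_of_lt

theorem Face.zero (h : Face l x y) {i : Fin N} (hi : l i y = 0) : l i x = 0 :=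
  (h i).elim id fun h => by simp [hi] at h

theorem Face.trans (h : Face l x y) (h' : Face l y z) : Face l x z := fun i => by
  rcases h i with h1 | h1
  · exact Or.inl h1
  rcases h' i with h2 | h2
  · simp [h2] at h1
  · refine Or.inr (not_le.1 fun h3 => ?_)
    nlinarith [mul_pos h1 h2, mul_nonneg (neg_nonneg.2 h3) (mul_self_nonneg (l i y))]

/-- two faces of one cell are conformal -/
theorem Face.conf₂ (h : Face l x z) (h' : Face l y z) : Conf l x y := fun i => by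
  rcases h i with h1 | h1
  · simp [h1]
  rcases h' i with h2 | h2
  · simp [h2]
  · refine not_lt.1 fun h3 => ?_
    nlinarith [mul_pos h1 h2, mul_nonneg (neg_pos.2 h3).le (mul_self_nonneg (l i z))]

theorem Face.symm_of (h : Face l x y) (h0 : ∀ i, l i x = 0 → l i y = 0) : Face l y x := fun i =>
  (h i).elim (fun h => Or.inl (h0 i h)) fun h => Or.inr (mul_comm (l i x) _ ▸ h)

theorem Cham.face_symm (hx : Cham l x) (h : Face l x y) : Face l y x :=
  h.symm_of fun i hi => by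
    by_cases h0 : l i = 0
    · simp [h0]
    · exact absurd hi (hx i h0)

theorem Cham.of_face (hx : Cham l x) (h : Face l x y) : Cham l y := fun i hi h0 =>
  hx i hi (h.zero h0)

theorem Face.add_left (hx : Face l x z) (hy : Face l y z) : Face l (x + y) z := fun i => by
  rw [map_add]
  rcases hx i with h1 | h1 <;> rcases hy i with h2 | h2
  · simp [h1, h2]
  · simpa [h1] using Or.inr h2
  · simpa [h2] using Or.inr h1
  · exact Or.inr (by rw [add_mul]; exact add_pos h1 h2)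

theorem Conf.face_add (h : Conf l x y) : Face l x (x + y) := fun i => by
  rcases eq_or_ne (l i x) 0 with h1 | h1
  · exact Or.inl h1
  · exact Or.inr (by rw [map_add, mul_add]; exact add_pos_of_pos_of_nonneg (mul_self_pos.2 h1) (h i))

theorem Face.add_right (hy : Face l x y) (hz : Face l x z) : Face l x (y + z) := fun i => by
  rcases hy i with h1 | h1
  · exact Or.inl h1
  rcases hz i with h2 | h2
  · exact Or.inl h2
  · exact Or.inr (by rw [map_add, mul_add]; exact add_pos h1 h2)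

theorem Face.nsmul_left (h : Face l x y) (n : ℕ) : Face l (n • x) y := by
  induction n with
  | zero => exact fun i => Or.inl (by simp)
  | succ n ih => rw [succ_nsmul]; exact ih.add_left h

theorem Face.nsmul_right (h : Face l x y) {n : ℕ} (hn : 0 < n) : Face l x (n • y) := fun i =>
  (h i).imp id fun h => by
    rw [map_nsmul, nsmul_eq_mul, mul_left_comm]
    exact mul_pos (Int.natCast_pos.2 hn) h

theorem Face.of_nsmul_left {n : ℕ} (hn : 0 < n) (h : Face l (n • x) y) : Face l x y := fun i => by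
  have h1 : (0 : ℤ) < n := Int.natCast_pos.2 hn
  rcases h i with h | h <;> rw [map_nsmul, nsmul_eq_mul] at h
  · exact Or.inl ((mul_eq_zero.1 h).resolve_left h1.ne')
  · rw [mul_assoc] at h
    exact Or.inr ((mul_pos_iff_of_pos_left h1).1 h)

theorem face_ev (x y : κ → ℤ) : ∀ᶠ n : ℕ in atTop, Face l x (n • x + y) := by
  refine eventually_all.2 fun i => ?_
  rcases eq_or_ne (l i x) 0 with h1 | h1
  · exact Eventually.of_forall fun _ => Or.inl h1
  · filter_upwards [ev_pos (mul_self_pos.2 h1) (l i x * l i y)] with n hn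
    refine Or.inr ?_
    rw [map_add, map_nsmul, nsmul_eq_mul]
    linarith [mul_add (l i x) (n * l i x) (l i y), mul_left_comm (l i x) n (l i x)]

/-- near `x`, the points `n x + y` stay in the cell of `y` if `x` is a face of it -/
theorem Face.add_nsmul (h : Face l x y) (n : ℕ) : Face l (n • x + y) y :=
  (h.nsmul_left n).add_left Face.rfl

theorem Face.add_nsmul' (h : Face l x y) (n : ℕ) : Face l y (n • x + y) :=
  add_comm y (n • x) ▸ (h.nsmul_left n).conf.symm.face_add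

theorem Cd.mono {d : ℕ} (h : Cd l x d) : Cd l x (d + 1) := by
  obtain ⟨α, h1, h2⟩ := h
  refine ⟨Fin.cons 0 α, fun j => ?_, fun i hi y hy => h2 i hi y fun j => hy j.succ⟩
  refine Fin.cases ?_ (fun j => ?_) j
  · rfl
  · exact h1 j

end Crest.Agent.X262.Sark
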