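import Crest.Agent.X262.Sark.Defs
import Crest.Agent.X262.Sark.Arr
import Crest.Agent.X262.Mod79.Bp

/-!
# Row 262, SARK (helper43): the geography of `K + ample`, packages and glue

* `Gm b`     : a smooth model `W`, a spanning family of adjoint classes, an arrangement on whose
  closed cells the positive part `P` is additive;
* `G.Cell y` : the terminal model of a chamber with its pull-back map `pi`;
* `CellStmt`, `FacetStmt`, `MissStmt`, `WallStmt`, `StarStmt`, `SetupStmt`; `sark_of`.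
-/

set_option autoImplicit false

open Filter
open scoped KaehlerDifferential

noncomputable section

namespace Crest.Agent.X262.Sark

open Crest.Agent.X277 Crest.Agent.X277.Lef Crest.Agent.X277.BD Crest.Agent.X277.Pst
open Crest.Agent.X277.BD.Br (On oP kP)
open Crest.Agent.X262.Mod

variable {K : Type} [Field K] [Algebra ℂ K] {n : ℕ}

/-- the geography of `K + ample` on a smooth model -/
structure Gm (b : Module.Basis (Fin n) K Ω[K⁄ℂ]) where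
  /-- the smooth model -/
  W : PModel ℂ K
  mod : IsMod (oP W)
  /-- the generators -/
  κ : Type
  [fin : Fintype κ]
  /-- the classes -/
  D : (κ → ℤ) →+ BD ℂ K
  car : ∀ x, Car (oP W) (D x)
  span : ∀ a : BD ℂ K, ∃ m : ℕ, 0 < m ∧ ∃ x f, EqOn (oP W) (m • a) (D x + pr ℂ f)
  prime : ∀ V, Prm (oP W) V → ∃ x f, 1 < (D x + pr ℂ f).val V ∧
    ∀ V', Prm (oP W) V' → V' ≠ V → (D x + pr ℂ f).val V' = 1
  /-- a multiple of the canonical class -/
  kk : κ → ℤ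
  /-- the multiple -/
  mK : ℕ
  mK_pos : 0 < mK
  /-- the function -/
  fk : K
  D_kk : D kk = mK • kP W b + pr ℂ fk
  adj : ∀ x, Ps x → ∃ (t q : ℕ) (h : BD ℂ K), 0 < t ∧ 0 < q ∧ D x = t • kP W b + h ∧
    Car (oP W) h ∧ (q • h - oP W).Free
  can_eq : ∀ (W' : PModel ℂ K) (V : RZ ℂ K), Prm (oP W') V → Prm (oP W) V →
    (kP W b).val V = (kP W' b).val V
  can_lt : ∀ (W' : PModel ℂ K) (V : RZ ℂ K), Prm (oP W') V → ¬ Prm (oP W) V →
    (kP W b).val V < (kP W' b).val V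
  /-- the number of forms -/
  N : ℕ
  /-- the arrangement -/
  l : Fin N → (κ → ℤ) →+ ℤ
  /-- the common denominator -/
  c : ℕ
  c_pos : 0 < c
  /-- the positive part of `c • D x` -/
  P : (κ → ℤ) → BD ℂ K
  pos : ∀ x, Ps x → (∃ m : ℕ, 0 < m ∧ Eff (m • D x)) → Mod.Pos (c • D x) (P x)
  cl : ∀ x y, Ps x → Ps y → (∃ m : ℕ, 0 < m ∧ Eff (m • D y)) → Face l x y →
    ∃ m : ℕ, 0 < m ∧ Eff (m • D x)
  add : ∀ x y, Ps x → Ps y → (∃ m : ℕ, 0 < m ∧ Eff (m • D x)) → (∃ m : ℕ, 0 < m ∧ Eff (m • D y)) →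
    Conf l x y → P (x + y) = P x + P y

attribute [instance] Gm.fin

namespace Gm

variable {b : Module.Basis (Fin n) K Ω[K⁄ℂ]} (G : Gm b)

/-- the effective cone -/
def S : Set (G.κ → ℤ) := {x | ∃ m : ℕ, 0 < m ∧ Eff (m • G.D x)}

/-- effective points of the open orthant -/
def Ef (x : G.κ → ℤ) : Prop := Ps x ∧ x ∈ G.S

/-- effective chambers -/
def Ch (y : G.κ → ℤ) : Prop := G.Ef y ∧ Cham G.l y

/-- the primes of `W` outside the negative part of `x` -/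
def Pr (x : G.κ → ℤ) (V : RZ ℂ K) : Prop :=
  Prm (oP G.W) V ∧ (G.P x).val V = (G.c • G.D x).val V

/-- the model of a chamber -/
structure Cell (y : G.κ → ℤ) where
  /-- `c` times the pull-back of the push-forward -/
  pi : (G.κ → ℤ) →+ BD ℂ K
  /-- the model -/
  T : TM b
  T_H : T.H = G.P y
  T_r : T.r = G.c * G.mK
  T_κ : T.κ = pi G.kk - G.c • pr ℂ G.fk
  ev : ∀ z, ∀ᶠ m : ℕ in atTop, G.P (m • y + z) = m • G.P y + pi z
  car : ∀ z, Car (G.P y) (pi z)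
  eqOn : ∀ z, EqOn (G.P y) (pi z) (G.c • G.D z)
  face : ∀ w, G.Ef w → Face G.l w y → pi w = G.P w
  ge : ∀ w, G.Ef w → G.P w ≤ pi w
  prm : ∀ V, Prm (G.P y) V ↔ G.Pr y V

end Gm

/-! ### the packages -/

/-- chambers are terminal `ℚ`-factorial models -/
def CellStmt : Prop := ∀ (K : Type) [Field K] [Algebra ℂ K] (n : ℕ)
  (b : Module.Basis (Fin n) K Ω[K⁄ℂ]) (G : Gm b) (y : G.κ → ℤ), G.Ch y → Nonempty (G.Cell y)

/-- a facet has one adjacent chamber, and it is a Mori fibre space -/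
def FacetStmt : Prop := ∀ (K : Type) [Field K] [Algebra ℂ K] (n : ℕ)
  (b : Module.Basis (Fin n) K Ω[K⁄ℂ]) (G : Gm b) (x y : G.κ → ℤ) (C : G.Cell y),
  Fct G.l G.S x → G.Ch y → Face G.l x y →
    (∀ y', G.Ch y' → Face G.l x y' → Face G.l y y') ∧ ∃ Y : MFS b, Y.toTM = C.T ∧ Y.A = G.P x

/-- a chamber at a point of codimension two misses at most one prime, and then it is a Mori fibre
space whose polarisation is trivial over every big face -/
def MissStmt : Prop := ∀ (K : Type) [Field K] [Algebra ℂ K] (n : ℕ)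
  (b : Module.Basis (Fin n) K Ω[K⁄ℂ]) (G : Gm b) (x y : G.κ → ℤ) (C : G.Cell y) (E : RZ ℂ K),
  Rdg G.l G.S x → G.Ch y → Face G.l x y → G.Pr x E → ¬ Prm (G.P y) E →
    (∀ V, G.Pr x V → V ≠ E → Prm (G.P y) V) ∧ (∃ Y : MFS b, Y.toTM = C.T ∧ Y.A = G.P x) ∧
      ∀ w, G.Ef w → Face G.l x w → Face G.l w y → Big (G.D w) → Car (G.P w) (G.P y)

/-- a wall between two chambers with the same primes is small -/
def WallStmt : Prop := ∀ (K : Type) [Field K] [Algebra ℂ K] (n : ℕ)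
  (b : Module.Basis (Fin n) K Ω[K⁄ℂ]) (G : Gm b) (x w y y' : G.κ → ℤ) (C : G.Cell y)
  (C' : G.Cell y') (m i j : ℕ), Rdg G.l G.S x → G.Ef w → Big (G.D w) → Face G.l x w →
  G.Ch y → G.Ch y' → Face G.l w y → Face G.l w y' → 0 < m → 0 < i → 0 < j →
  m • w = i • y + j • y' → SameP (G.P y) (G.P y') → Flip b (G.P x) C.T C'.T

/-- one half of a link -/
def StarStmt : Prop := ∀ (K : Type) [Field K] [Algebra ℂ K] (n : ℕ)
  (b : Module.Basis (Fin n) K Ω[K⁄ℂ]) (G : Gm b) (x y : G.κ → ℤ),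
  Rdg G.l G.S x → G.Ch y → Face G.l x y →
    (∀ V, Prm (G.P y) V ↔ G.Pr x V) ∨ ∃ (Z : TM b) (d : DivE b (G.P x) Z),
      (∀ V, Prm Z.H V ↔ G.Pr x V) ∧ Car Z.H (G.P x) ∧ SameP d.Y.H (G.P y)

/-- the arrangement of a finitely generated family (the last fields of `Gm`) -/
def ArrOut {κ : Type} (D : (κ → ℤ) →+ BD ℂ K) : Prop :=
  ∃ (N : ℕ) (l : Fin N → (κ → ℤ) →+ ℤ) (c : ℕ) (P : (κ → ℤ) → BD ℂ K), 0 < c ∧
    (∀ x, Ps x → (∃ m : ℕ, 0 < m ∧ Eff (m • D x)) → Mod.Pos (c • D x) (P x)) ∧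
    (∀ x y, Ps x → Ps y → (∃ m : ℕ, 0 < m ∧ Eff (m • D y)) → Face l x y →
      ∃ m : ℕ, 0 < m ∧ Eff (m • D x)) ∧
    ∀ x y, Ps x → Ps y → (∃ m : ℕ, 0 < m ∧ Eff (m • D x)) → (∃ m : ℕ, 0 < m ∧ Eff (m • D y)) →
      Conf l x y → P (x + y) = P x + P y

/-- the canonical class at divisorial valuations; smooth models are terminal -/
def CanStmt : Prop := ∀ (K : Type) [Field K] [Algebra ℂ K] (n : ℕ)
  (b : Module.Basis (Fin n) K Ω[K⁄ℂ]) (W W' : PModel ℂ K) (V : RZ ℂ K), Prm (oP W') V →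
    (Prm (oP W) V → (kP W b).val V = (kP W' b).val V) ∧
      (¬ Prm (oP W) V → (kP W b).val V < (kP W' b).val V)

/-- the geography of two Fano models -/
def SetupStmt (n : ℕ) : Prop := ∀ (K : Type) [Field K] [Algebra ℂ K]
  (b : Module.Basis (Fin (n + 1)) K Ω[K⁄ℂ]) (P X : PModel ℂ K), F1 P b → F1 X b →
  ∃ (G : Gm b) (Q₀ Q₁ : Set (G.κ → ℤ)) (u w₀ w₁ : G.κ → ℤ), Opn Q₀ ∧ Opn Q₁ ∧ Ps u ∧ Ps w₀ ∧
    Ps w₁ ∧ (∀ y, ∀ᶠ m : ℕ in atTop, m • u + y ∉ G.S) ∧ Big (G.D w₀) ∧ Big (G.D w₁) ∧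
    u ∈ Q₀ ∧ u ∈ Q₁ ∧ w₀ ∈ Q₀ ∧ w₁ ∈ Q₁ ∧
    (∀ y ∈ Q₀, Ps y → Big (G.D y) → SameP (G.P y) (oP P)) ∧
    ∀ y ∈ Q₁, Ps y → Big (G.D y) → SameP (G.P y) (oP X)

end Crest.Agent.X262.Sark
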