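import Crest.Agent.X262.Sark.Glue
import Crest.Agent.X262.Sark46.Stmt
import Crest.Agent.X262.Sark46.Setup
import Crest.Agent.X262.Sark14.Star
import Crest.Agent.X262.Mod79.Facet

/-!
# Row 262, SARK (helper43): assembly

* `sark_of'` : `FacetStmt → MissStmt → SetupStmt n → SarkStmt n`; `sark_of_setup`, `sark_of_fg`.
-/

set_option autoImplicit false

open Filter
open scoped KaehlerDifferential

noncomputable section

namespace Crest.Agent.X262.Sark

open Crest.Agent.X277 Crest.Agent.X277.Lef Crest.Agent.X277.BD Crest.Agent.X277.Pst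
open Crest.Agent.X277.BD.Br (On oP kP)
open Crest.Agent.X262.Mod Gm

/-- **the Sarkisov program from the remaining packages** -/
theorem sark_of' (hF : FacetStmt) (hM : MissStmt) {n : ℕ} (hG : SetupStmt n) : SarkStmt n :=
  sark_of Sark46.pathStmt cellStmt hF (Sark14.starStmt_of cellStmt hM Sark46.chainStmt) hG

/-- **the Sarkisov program from the setup** -/
theorem sark_of_setup {n : ℕ} (hG : SetupStmt n) : SarkStmt n := sark_of' facetStmt missStmt hG

/-- **the Sarkisov program from finite generation** -/
theorem sark_of_fg {n : ℕ} (hA : FG.AStmt (n + 1)) : SarkStmt n :=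
  sark_of_setup (Sark46.setup_of hA)

end Crest.Agent.X262.Sark
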