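import Crest.Agent.X262.Mod79.Cell

/-!
# Row 262, SARK (helper43): elementary facts on the geography `Gm` (complements to `Mod79/Cell`)

* `exists_cham`, `Ef.big_sub`, `Ef.exists_ch`, `sameP_of_face`.
-/

set_option autoImplicit false

open Filter
open scoped KaehlerDifferential

noncomputable section

namespace Crest.Agent.X262.Sark

open Crest.Agent.X277 Crest.Agent.X277.Lef Crest.Agent.X277.BD Crest.Agent.X277.Pst
open Crest.Agent.X277.BD.Br (On oP kP)
open Crest.Agent.X262.Mod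

/-- a vector which is in no hyperplane of the arrangement -/
theorem exists_cham43 {κ : Type} {N : ℕ} (l : Fin N → (κ → ℤ) →+ ℤ) : ∃ z, Cham l z := by
  classical
  have key : ∀ s : Finset (Fin N), ∃ z, ∀ i ∈ s, l i ≠ 0 → l i z ≠ 0 := fun s => by
    induction s using Finset.induction_on with
    | empty => exact ⟨0, by simp⟩
    | insert i s _ ih =>
      obtain ⟨z, hz⟩ := ih
      by_cases h0 : l i = 0
      · exact ⟨z, fun j hj => (Finset.mem_insert.1 hj).elim (fun h h' => absurd (h ▸ h0) h') (hz j)⟩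
      by_cases h1 : l i z = 0
      · obtain ⟨u, hu⟩ : ∃ u, l i u ≠ 0 := not_forall.1 fun h => h0 (AddMonoidHom.ext h)
        obtain ⟨m, hm⟩ := (face_ev (l := l) z u).exists
        refine ⟨m • z + u, fun j hj h2 h3 => ?_⟩
        rcases Finset.mem_insert.1 hj with rfl | hj
        · exact hu (by rwa [map_add, map_nsmul, h1, nsmul_zero, zero_add] at h3)
        · exact hz j hj h2 (hm.zero h3)
      · exact ⟨z, fun j hj => (Finset.mem_insert.1 hj).elim (fun h _ => h ▸ h1) (hz j)⟩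
  obtain ⟨z, hz⟩ := key Finset.univ
  exact ⟨z, fun i => hz i (Finset.mem_univ i)⟩

theorem Cham.ev43 {κ : Type} {N : ℕ} {l : Fin N → (κ → ℤ) →+ ℤ} {z : κ → ℤ} (hz : Cham l z)
    (x : κ → ℤ) : ∀ᶠ m : ℕ in atTop, Cham l (m • x + z) := by
  filter_upwards [face_ev (l := l) x z] with m hm i hi h
  have h1 := hm.zero h
  exact hz i hi (by rwa [map_add, map_nsmul, h1, nsmul_zero, zero_add] at h)

variable {K : Type} [Field K] [Algebra ℂ K] {n : ℕ} {b : Module.Basis (Fin n) K Ω[K⁄ℂ]}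

namespace G43

open Gm

variable {G : Gm b} {x y z w : G.κ → ℤ} {V : RZ ℂ K}

theorem big_add (h : Big (G.D x)) (hy : y ∈ G.S) : Big (G.D (x + y)) := by
  obtain ⟨m, h1, h2⟩ := hy
  rw [map_add]
  exact h.add_psef (h2.psef.of_nsmul h1)

/-- a multiple of `x` is `t K +` an ample class -/
theorem big_sub (hx : G.Ef x) : ∀ᶠ m : ℕ in atTop, Big (G.D (m • x + -G.kk)) := by
  obtain ⟨t, q, h, ht, hq, h1, -, h3⟩ := G.adj x hx.1
  have h4 : Big h := big_of_eff_sub G.mod.big hq h3.eff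
  have h5 : Big (G.D (G.mK • x + -(t • G.kk))) := by
    have : G.D (G.mK • x + -(t • G.kk)) = G.mK • h + t • -pr ℂ G.fk := by
      rw [map_add, map_neg, map_nsmul, map_nsmul, h1, G.D_kk]
      module
    exact this ▸ (h4.nsmul G.mK_pos).add_eff ((free_neg_pr _).eff.nsmul t)
  filter_upwards [eventually_ge_atTop G.mK] with m hm
  obtain ⟨k, hk⟩ := Nat.exists_eq_add_of_le (hm.trans (Nat.le_mul_of_pos_left m ht))
  have h6 := big_add h5 (S_nsmul hx.2 k)
  rw [show G.mK • x + -(t • G.kk) + k • x = t • (m • x + -G.kk) by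
    rw [smul_add, smul_smul, hk, add_nsmul, smul_neg]; abel, map_nsmul] at h6
  exact h6.of_nsmul ht

theorem exists_big (hx : G.Ef x) : ∃ w, G.Ef w ∧ Big (G.D w) ∧ Face G.l x w := by
  obtain ⟨m, h1, h2, h3⟩ :=
    ((big_sub hx).and ((hx.1.ev (-G.kk)).and (face_ev (l := G.l) x (-G.kk)))).exists
  exact ⟨_, ⟨h2, h1.exists_eff⟩, h1, h3⟩

/-- every effective point is a face of an effective chamber -/
theorem exists_ch (hx : G.Ef x) : ∃ y, G.Ch y ∧ Face G.l x y := by
  obtain ⟨w, h1, h2, h3⟩ := exists_big hx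
  obtain ⟨z, hz⟩ := exists_cham43 G.l
  obtain ⟨m₀, h4⟩ := h2.exists_sub (-G.D z)
  obtain ⟨m, h5, h6, h7, h8⟩ := ((eventually_ge_atTop m₀).and ((h1.1.ev z).and
    ((hz.ev43 w).and (face_ev (l := G.l) w z)))).exists
  refine ⟨_, ⟨⟨h6, Big.exists_eff ?_⟩, h7⟩, h3.trans h8⟩
  rw [map_add, map_nsmul, ← sub_neg_eq_add]
  exact h4 m h5

theorem sameP_of_face (hx : G.Ef x) (hw : G.Ef w) (h : Face G.l x w) (h' : Face G.l w x) :
    SameP (G.P x) (G.P w) := fun _ => ⟨(car_face hx hw h).prm, (car_face hw hx h').prm⟩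

end G43

end Crest.Agent.X262.Sark
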