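import Crest.Agent.X262.Sark.Basic

/-!
# Row 262, SARK (helper43): the glue

* `link_of` : adjacent facets give a Sarkisov link;
* `sark_of` : `PathStmt → CellStmt → FacetStmt → StarStmt → SetupStmt n → SarkStmt n`.
-/

set_option autoImplicit false

open Filter
open scoped KaehlerDifferential

noncomputable section

namespace Crest.Agent.X262.Sark

open Crest.Agent.X277 Crest.Agent.X277.Lef Crest.Agent.X277.BD Crest.Agent.X277.Pst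
open Crest.Agent.X277.BD.Br (On oP kP)
open Crest.Agent.X262.Mod Gm G43

variable {K : Type} [Field K] [Algebra ℂ K] {n : ℕ} {b : Module.Basis (Fin n) K Ω[K⁄ℂ]}
variable {G : Gm b} {x x₁ x₂ y y' y₁ y₂ : G.κ → ℤ}

theorem Fct.ef43 (h : Fct G.l G.S x) : G.Ef x := ⟨h.1, h.2.1⟩

theorem Rdg.ef43 (h : Rdg G.l G.S x) : G.Ef x := ⟨h.1, h.2.1⟩

/-- the chamber of a facet is an end of the link of a ridge -/
theorem end_of (hC : CellStmt) (hF : FacetStmt) (hS : StarStmt) (hx : Rdg G.l G.S x)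
    (h1 : Fct G.l G.S x₁) (h2 : Face G.l x x₁) (hy : G.Ch y) (h3 : Face G.l x₁ y) :
    ∃ Z : TM b, (∀ V, Prm Z.H V ↔ G.Pr x V) ∧ Car Z.H (G.P x) ∧ End b (G.P x) Z (G.P y) := by
  rcases hS K n b G x y hx hy (h2.trans h3) with h | ⟨Z, d, h4, h5, h6⟩
  · obtain ⟨C⟩ := hC K n b G y hy
    obtain ⟨-, Y, h4, h5⟩ := hF K n b G x₁ y C h1 hy h3
    have h6 : Y.H = G.P y := (congrArg TM.H h4).trans C.T_H
    refine ⟨C.T, C.T_H ▸ h, C.T_H ▸ car_face hx.ef43 hy.1 (h2.trans h3), Or.inr ⟨⟨Y, ?_, ?_⟩, ?_⟩⟩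
    · rw [h6, C.T_H]
      exact SameP.rfl
    · exact h5 ▸ car_face hx.ef43 h1.ef43 h2
    · change SameP Y.H _
      rw [h6]
      exact SameP.rfl
  · exact ⟨Z, h4, h5, Or.inl ⟨d, h6⟩⟩

/-- adjacent facets give a link -/
theorem link_of (hC : CellStmt) (hF : FacetStmt) (hS : StarStmt) (h : Adjc G.l G.S x₁ x₂)
    (hy₁ : G.Ch y₁) (h₁ : Face G.l x₁ y₁) (hy₂ : G.Ch y₂) (h₂ : Face G.l x₂ y₂) :
    Link b (G.P y₁) (G.P y₂) := by
  obtain ⟨f₁, f₂, x, hx, g₁, g₂⟩ := h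
  obtain ⟨Z, a1, a2, a3⟩ := end_of hC hF hS hx f₁ g₁ hy₁ h₁
  obtain ⟨Z', b1, b2, b3⟩ := end_of hC hF hS hx f₂ g₂ hy₂ h₂
  exact ⟨G.P x, Z, Z', hx.ef43.free, fun V => (a1 V).trans (b1 V).symm, a2, b2, a3, b3⟩

/-- the chamber of a facet is unique -/
theorem sameP_of_fct (hC : CellStmt) (hF : FacetStmt) (hx : Fct G.l G.S x) (hy : G.Ch y)
    (h : Face G.l x y) (hy' : G.Ch y') (h' : Face G.l x y') : SameP (G.P y) (G.P y') := by
  obtain ⟨C⟩ := hC K n b G y hy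
  have h1 := (hF K n b G x y C hx hy h).1 y' hy' h'
  exact sameP_of_face hy.1 hy'.1 h1 (hy.2.face_symm h1)

theorem steps_of (hC : CellStmt) (hF : FacetStmt) (hS : StarStmt) (h₁ : Fct G.l G.S x₁)
    (h : Relation.ReflTransGen (Adjc G.l G.S) x₁ x₂) (hy₁ : G.Ch y₁) (f₁ : Face G.l x₁ y₁) :
    ∀ y₂, G.Ch y₂ → Face G.l x₂ y₂ → Relation.ReflTransGen (Step b) (G.P y₁) (G.P y₂) := by
  induction h with
  | refl => exact fun y₂ hy₂ f₂ => .single (Or.inl (sameP_of_fct hC hF h₁ hy₁ f₁ hy₂ f₂))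
  | tail _ h ih =>
    intro y₃ hy₃ f₃
    obtain ⟨y₂, hy₂, f₂⟩ := exists_ch h.1.ef43
    exact (ih y₂ hy₂ f₂).tail (Or.inr (link_of hC hF hS h hy₂ f₂ hy₃ f₃))

/-- a chamber in an open region -/
theorem exists_ch_mem {Q : Set (G.κ → ℤ)} (hQ : Opn Q) (hx : G.Ef x) (h : x ∈ Q) :
    ∃ y ∈ Q, G.Ch y ∧ Face G.l x y := by
  obtain ⟨y, h1, h2⟩ := exists_ch hx
  obtain ⟨m, h3, h4⟩ := ((hQ.ev x h y).and (hx.1.ev y)).exists
  exact ⟨_, h3, ⟨h1.1.of_face h4 (h2.add_nsmul m), h1.2.of_face (h2.add_nsmul' m)⟩,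
    h2.trans (h2.add_nsmul' m)⟩

/-- **the Sarkisov program from the packages** -/
theorem sark_of (hP : PathStmt) (hC : CellStmt) (hF : FacetStmt) (hS : StarStmt) {n : ℕ}
    (hG : SetupStmt n) : SarkStmt n := by
  intro K _ _ b P X h1 h2
  obtain ⟨G, Q₀, Q₁, u, w₀, w₁, a1, a2, a3, a4, a5, a6, a7, a8, a9, a10, a11, a12, a13, a14⟩ :=
    hG K b P X h1 h2
  obtain ⟨x₀, b1, x₁, b2, b3, b4, b5⟩ := hP G.κ G.N G.l G.S Q₀ Q₁ u w₀ w₁ G.cone a1 a2 a3 a4 a5 a6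
    (fun h => bdy_iff.1 h a7) (fun h => bdy_iff.1 h a8) a9 a10 a11 a12
  obtain ⟨y₀, c1, c2, c3⟩ := exists_ch_mem a1 b3.ef43 b1
  obtain ⟨y₁, d1, d2, d3⟩ := exists_ch_mem a2 b4.ef43 b2
  have e1 : Step b (oP P) (G.P y₀) := Or.inl (a13 y₀ c1 c2.1.1 c2.big).symm
  have e2 : Step b (G.P y₁) (oP X) := Or.inl (a14 y₁ d1 d2.1.1 d2.big)
  exact ((steps_of hC hF hS b3 b5 c2 c3 y₁ d2 d3).head e1).tail e2

end Crest.Agent.X262.Sark
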